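import Vale.Agent.P073.ALX.Main
import Vale.Agent.P073.H248.Final
import Vale.Agent.P073.H240.Core
import Vale.Agent.P073.H894.Box
import Vale.Agent.P073.H225.Slab
import Vale.Agent.P073.GB932.Defs
import Vale.Agent.P073.GB3.Spec

/-!
# P073, block ALX: Alexander's theorem for conical spheres in space

Every conical 2-sphere in `Fin 3 → ℝ` (and in `(ℝ × ℝ) × ℝ`) is the image of the standard sphere
under an ambient conical homeomorphism.
-/

open Set Metric Topology Filter

namespace P073.ALX

open P073 P073.H240

/-- **Alexander's theorem** in `Fin 3 → ℝ` -/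
theorem specALX3 : SpecALX3 :=
  H248.specALX3_of specBox H225.specSlab
    (fun _ _ _ _ _ hS hmem hr hv => H225.dirs_two_of_vertical hS hmem hr hv) specStack_share

/-- **Alexander's theorem** in `(ℝ × ℝ) × ℝ` -/
theorem specALX : SpecALX := specALX_of_three specALX3

/-- form of block GB3 (helper422) -/
theorem specAlex : GB3.SpecAlex := fun S hS => specALX3 S hS

/-- form of block GB932 -/
theorem ambStd_three : GB932.AmbStd 3 := fun S hS => specALX3 S hS

/-- every conical sphere is the frontier of an ambient ball -/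
theorem exists_ball (S : Set (Fin 3 → ℝ)) (hS : ConSphere 2 S) :
    ∃ Φ : ConHomeo (univ : Set (Fin 3 → ℝ)) (univ : Set (Fin 3 → ℝ)), Φ.toFun '' sphere 0 1 = S ∧
      frontier (Φ.toFun '' closedBall 0 1) = S := by
  obtain ⟨Φ, hΦ⟩ := specALX3 S hS
  have h1 : Φ.symm.toFun '' sphere 0 1 = S := by
    rw [← hΦ]
    show Φ.invFun '' (Φ.toFun '' S) = S
    rw [image_image]
    exact (image_congr fun x _ => Φ.left_inv (mem_univ x)).trans (image_id' S)
  refine ⟨Φ.symm, h1, ?_⟩
  have h2 : Φ.symm.toFun '' frontier (closedBall 0 1) = frontier (Φ.symm.toFun '' closedBall 0 1) :=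
    Φ.symm.toHomeomorph.image_frontier _
  rw [← h2, frontier_cube, h1]

end P073.ALX
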