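import Vale.Agent.P073.H240.Stack
import Vale.Agent.P073.ALXG.Generic
import Vale.Agent.P073.TR.OneDim

/-!
# P073, block ALX, part RED: statements for the replacement of the vertex boxes

* (g0), (g5) helper107: `Swp`, `SpecSweep`, `SpecInd`
* (g1) helper894: `SpecBoxGL`
* (g2), (g4) and the transport helper225: `SpecBox1`, `SpecBox`
* (g3) helper114: `SpecSLloc`, `SpecSL`
-/

open Set Metric Topology Filter

namespace P073.ALX

open P073 P073.H240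

/-! ## (g3) vertical parts of spheres -/

/-- a conical sphere which is vertical near one of its points has two directions there -/
def SpecSLloc : Prop := ∀ (S : Set V) (m : P) (c r : ℝ), ConSphere 2 S → (m, c) ∈ S → 0 < r →
  (∀ w z, ‖w - m‖ < r → |z - c| < r → ((w, z) ∈ S ↔ (w, c) ∈ S)) →
  LocConeAt (slice S c) m ∧ (TR.dirs (slice S c) m).ncard = 2

/-- a conical sphere which is vertical in an open slab has there walls over circles -/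
def SpecSL : Prop := ∀ (S : Set V) (a b : ℝ) (M : Set P), ConSphere 2 S → a < b →
  (∀ w z, a < z → z < b → ((w, z) ∈ S ↔ w ∈ M)) →
  IsCompact M ∧ ∃ F : Finset (Set P), CircFam F ∧ M = ⋃ c ∈ F, c

/-! ## One box -/

/-- normal form of a sphere at a vertex: vertical outside the unit box, a cone inside -/
structure BoxForm (S : Set V) : Prop where
  sphere : ConSphere 2 S
  vert : ∀ (w : P) (z : ℝ), 1 ≤ ‖w‖ → |z| ≤ 1 → ((w, z) ∈ S ↔ (w, 0) ∈ S)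
  cone : ∀ p : V, ‖p‖ ≤ 1 → ∀ s ∈ Ioc (0:ℝ) 1, (s • p ∈ S ↔ p ∈ S)

/-- **(g1)** `S ∩ sphere 0 1` is a circle, it bounds two discs of the cube surface, and the cone
inside the box can be replaced by one of them. -/
def SpecBoxGL : Prop := ∀ S : Set V, BoxForm S → (0 : V) ∈ S → ∃ D₁ D₂ : Set V,
  D₁ ∪ D₂ = sphere 0 1 ∧ D₁ ∩ D₂ = S ∩ sphere 0 1 ∧ ConBall 2 D₁ (S ∩ sphere 0 1) ∧
  ConBall 2 D₂ (S ∩ sphere 0 1) ∧ ConSphere 2 (S \ ball 0 1 ∪ D₁) ∧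
  (AmbStd (S \ ball 0 1 ∪ D₁) → AmbStd S)

/-- **one box**, normal form -/
def SpecBox1 : Prop := ∀ S : Set V, BoxForm S → ∃ (S' : Set V) (M : Set P),
  ConSphere 2 S' ∧ (AmbStd S' → AmbStd S) ∧ (∀ p : V, 1 < |p.2| → (p ∈ S' ↔ p ∈ S)) ∧
  (∀ w z, |z| < 1 → ((w, z) ∈ S' ↔ w ∈ M)) ∧ Share (slice S (-1)) M ∧ Share M (slice S 1)

/-- **one box** -/
def SpecBox : Prop := ∀ (S : Set V) (g : ConHomeo (univ : Set P) (univ : Set P)) (w₀ : P)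
  (c δ ρ : ℝ), ConSphere 2 S → 0 < δ → 0 < ρ →
  (∀ w z, ρ ≤ ‖w - w₀‖ → |z - c| ≤ δ → ((g.toFun w, z) ∈ S ↔ (g.toFun w, c) ∈ S)) →
  (∀ w z s, ‖w - w₀‖ ≤ ρ → |z - c| ≤ δ → 0 < s → s ≤ 1 →
    ((g.toFun (w₀ + s • (w - w₀)), c + s * (z - c)) ∈ S ↔ (g.toFun w, z) ∈ S)) →
  ∃ (S' : Set V) (M : Set P), ConSphere 2 S' ∧ (AmbStd S' → AmbStd S) ∧
    (∀ p : V, p.2 < c - δ ∨ c + δ < p.2 → (p ∈ S' ↔ p ∈ S)) ∧
    (∀ w z, c - δ < z → z < c + δ → ((w, z) ∈ S' ↔ w ∈ M)) ∧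
    Share (slice S (c - δ)) M ∧ Share M (slice S (c + δ))

/-! ## Swept spheres -/

/-- below `t` the set `S` consists of closed vertical layers of positive height and of layers with
one box; each box layer is followed by a vertical layer. -/
inductive Swp (S : Set V) : ℝ → Prop
  | base (t : ℝ) (h : ∀ p ∈ S, t < p.2) : Swp S t
  | vert (a b : ℝ) (hab : a < b) (h : ∀ w z, a ≤ z → z ≤ b → ((w, z) ∈ S ↔ (w, a) ∈ S))
      (H : Swp S a) : Swp S b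
  | pass (g : ConHomeo (univ : Set P) (univ : Set P)) (w₀ : P) (c δ ρ b : ℝ) (hδ : 0 < δ)
      (hρ : 0 < ρ) (hb : c + δ < b)
      (hv : ∀ w z, ρ ≤ ‖w - w₀‖ → |z - c| ≤ δ → ((g.toFun w, z) ∈ S ↔ (g.toFun w, c) ∈ S))
      (hc : ∀ w z s, ‖w - w₀‖ ≤ ρ → |z - c| ≤ δ → 0 < s → s ≤ 1 →
        ((g.toFun (w₀ + s • (w - w₀)), c + s * (z - c)) ∈ S ↔ (g.toFun w, z) ∈ S))
      (h : ∀ w z, c + δ ≤ z → z ≤ b → ((w, z) ∈ S ↔ (w, c + δ) ∈ S))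
      (H : Swp S (c - δ)) : Swp S b

/-- **(g0)** -/
def SpecSweep : Prop := ∀ S : Set (Fin 3 → ℝ), IsCompact S → LocCone S →
  ∃ (Φ : ConHomeo (univ : Set (Fin 3 → ℝ)) (univ : Set V)) (b : ℝ),
    Swp (Φ.toFun '' S) b ∧ ∀ p ∈ Φ.toFun '' S, p.2 < b

/-- below the level `s n = t` the sphere is a stack; the circles of the top layer form the
slice at the height `t` of `S₀` -/
structure StkTo (S : Set V) (Γ : Set P) (t : ℝ) (n : ℕ) (s : ℕ → ℝ) (T : Finset (ℕ × Set P)) :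
    Prop where
  mono : StrictMono s
  top : s n = t
  pos : ∀ w ∈ T, w.1 ≠ 0
  le : ∀ w ∈ T, w.1 ≤ n
  circ : ∀ w ∈ T, IsCircle w.2
  disj : ∀ w ∈ T, ∀ w' ∈ T, w.1 = w'.1 → w.2 ≠ w'.2 → Disjoint w.2 w'.2
  low : ∀ x ∈ S, s 0 ≤ x.2
  slab : ∀ (j : ℕ) (x : V), j < n → s j < x.2 → x.2 < s (j + 1) → (x ∈ S ↔ x.1 ∈ Gam T (j + 1))
  rel : ∀ w ∈ T, ∀ w' ∈ T, w'.1 = w.1 + 1 → Share w.2 w'.2
  topG : Gam T n = Γ

/-- **(g5)** induction over the layers -/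
def SpecInd : Prop := SpecSL → SpecSLloc → SpecBox → ∀ (S : Set V) (t : ℝ), ConSphere 2 S →
  Swp S t → ∃ (S' : Set V) (n : ℕ) (s : ℕ → ℝ) (T : Finset (ℕ × Set P)),
    ConSphere 2 S' ∧ (AmbStd S' → AmbStd S) ∧ (∀ p : V, t ≤ p.2 → (p ∈ S' ↔ p ∈ S)) ∧
    StkTo S' (slice S t) t n s T

/-- **RED** -/
def SpecRED3 : Prop := ∀ S : Set (Fin 3 → ℝ), ConSphere 2 S →
  ∃ (s : ℕ → ℝ) (T : Finset (ℕ × Set P)) (S' : Set V), StackR Share s T S' ∧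
    (AmbStd S' → AmbStd S)

end P073.ALX
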