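import Vale.Agent.P073.ALX.Box
import Vale.Agent.P073.H894.Column

/-!
# P073, block ALX: assembly
-/

open Set Metric Topology Filter

namespace P073.ALX

open P073 P073.H240

theorem specALX3_of (hR : SpecRED3) (hS : SpecStack Share) : SpecALX3 := by
  intro S h
  obtain ⟨s, T, S', h1, h2⟩ := hR S h
  exact h2 (hS s T S' h1)

theorem specALX_of_three (h : SpecALX3) : SpecALX := by
  intro S hS
  have h1 : ConSphere 2 (toV3.toFun '' S) := by
    obtain ⟨ψ⟩ := hS
    exact ⟨(toV3.restr ψ.conicalSet_left (subset_univ _)).symm.trans ψ⟩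
  obtain ⟨Φ, hΦ⟩ := h _ h1
  refine ⟨toV3.trans Φ, ?_⟩
  rw [ConHomeo.trans_toFun, image_comp, hΦ]

end P073.ALX
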