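import Vale.Agent.P073.PR.Sphere
import Vale.Agent.P073.SCH.Schoenflies

/-!
# P073, block ALX (Alexander's theorem for conical spheres in space): statements

Target `SpecALX`: every conical 2-sphere in space is ambient standard.

* `GL` (helper894, helper107): `SpecPush`, `SpecGL`.
* `RED` (helper248, helper225): every sphere can be reduced to a stack.
* `ST` (helper114; helper487, helper240, helper655): stacks are standard.

`P = ℝ × ℝ` with the sup norm, `V = P × ℝ` with the sup norm.  The unit ball is always that of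
`Fin 3 → ℝ`.
-/

open Set Metric Topology Filter

namespace P073.ALX

open P073

/-- the plane -/
abbrev P : Type := ℝ × ℝ

/-- space -/
abbrev V : Type := (ℝ × ℝ) × ℝ

variable {E : Type*} [NormedAddCommGroup E] [NormedSpace ℝ E]

/-- ambient standard spheres -/
def AmbStd (S : Set E) : Prop :=
  ∃ Φ : ConHomeo (univ : Set E) (univ : Set (Fin 3 → ℝ)), Φ.toFun '' S = sphere 0 1

/-- ambient balls -/
def AmbBall (B : Set E) : Prop :=
  ∃ Φ : ConHomeo (univ : Set E) (univ : Set (Fin 3 → ℝ)), Φ.toFun '' B = closedBall 0 1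

/-! ## Final statements -/

/-- Alexander's theorem, in `V` -/
def SpecALX : Prop := ∀ S : Set V, ConSphere 2 S → AmbStd S

/-- Alexander's theorem, in `Fin 3 → ℝ` -/
def SpecALX3 : Prop := ∀ S : Set (Fin 3 → ℝ), ConSphere 2 S → AmbStd S

/-- C2 input -/
def SpecJS : Prop := JordanSch 2 (sphere (0 : Fin 3 → ℝ) 1)

/-! ## GL -/

/-- **PUSH**: `Y` is an ambient ball, its boundary is the union of the discs `D`, `D'`; the closed
polyhedral set `O` meets `Y` exactly in `D`, and `O ∪ Y` is a neighbourhood of the open disc.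
Then `Y` can be pushed into `O`. -/
def SpecPush : Prop := ∀ O Y D D' c : Set V, IsClosed O → LocCone O → AmbBall Y →
  ConBall 2 D c → ConBall 2 D' c → D ∪ D' = frontier Y → D ∩ D' = c → O ∩ Y = D →
  D \ c ⊆ interior (O ∪ Y) →
  ∃ Ψ : ConHomeo (univ : Set V) (univ : Set V), Ψ.toFun '' (O ∪ Y) = O

/-- **GL**: if the disc `D` cuts the sphere `A₁ ∪ A₂` into two standard spheres, then the
sphere is standard. -/
def SpecGL : Prop := ∀ A₁ A₂ D c : Set V, ConBall 2 A₁ c → ConBall 2 A₂ c → ConBall 2 D c →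
  A₁ ∩ A₂ = c → A₁ ∩ D = c → A₂ ∩ D = c → AmbStd (A₁ ∪ D) → AmbStd (A₂ ∪ D) → AmbStd (A₁ ∪ A₂)

/-- two discs with the same boundary, otherwise disjoint, form a sphere -/
def SpecTwoDiscs : Prop := ∀ A₁ A₂ c : Set V, ConBall 2 A₁ c → ConBall 2 A₂ c → A₁ ∩ A₂ = c →
  ConSphere 2 (A₁ ∪ A₂)

/-! ## Stacks -/

/-- the slice of `S` at height `z` -/
def slice (S : Set V) (z : ℝ) : Set P := {w | (w, z) ∈ S}

/-- finite disjoint unions of circles -/
def CircFam (F : Finset (Set P)) : Prop :=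
  (∀ c ∈ F, IsCircle c) ∧ ∀ c ∈ F, ∀ c' ∈ F, c ≠ c' → Disjoint c c'

/-- **Event**: the planar set `Γ` below is replaced by `Γ'` above across the plateau `x`.
Both coincide off `x`, meet `x` only in its frontier, and they share the frontier of `x`. -/
structure Ev (Γ x Γ' : Set P) : Prop where
  disc : AmbDisc x
  lo : Γ ∩ x ⊆ frontier x
  hi : Γ' ∩ x ⊆ frontier x
  off : Γ \ x = Γ' \ x
  cov : frontier x ⊆ Γ ∪ Γ'
  lo_cl : Γ ∩ x ⊆ closure (frontier x \ Γ')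
  hi_cl : Γ' ∩ x ⊆ closure (frontier x \ Γ)

theorem Ev.symm {Γ x Γ' : Set P} (h : Ev Γ x Γ') : Ev Γ' x Γ :=
  ⟨h.disc, h.hi, h.lo, h.off.symm, by rw [union_comm]; exact h.cov, h.hi_cl, h.lo_cl⟩

/-- **Stack**: the slices of the sphere `S` are finite disjoint unions of circles, constant except
at the heights `a ∈ J`, where there is one plateau `x a`. -/
structure Stk (S : Set V) (J : Finset ℝ) (x : ℝ → Set P) : Prop where
  sphere : ConSphere 2 S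
  reg : ∀ z ∉ J, ∀ᶠ z' in 𝓝 z, slice S z' = slice S z
  circ : ∀ z ∉ J, ∃ F : Finset (Set P), CircFam F ∧ slice S z = ⋃ c ∈ F, c
  ev : ∀ a ∈ J, ∃ Γ Γ' : Set P, (∀ᶠ z in 𝓝[<] a, slice S z = Γ) ∧
    (∀ᶠ z in 𝓝[>] a, slice S z = Γ') ∧ slice S a = Γ ∪ x a ∪ Γ' ∧ Ev Γ (x a) Γ'

/-- **ST**: stacks are standard -/
def SpecST : Prop := ∀ (S : Set V) (J : Finset ℝ) (x : ℝ → Set P), Stk S J x → AmbStd S

/-- **RED**: reduction to stacks -/
def SpecRED : Prop := ∀ S : Set V, ConSphere 2 S →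
  ∃ (S' : Set V) (J : Finset ℝ) (x : ℝ → Set P), Stk S' J x ∧ (AmbStd S' → AmbStd S)

/-! ## Parts of ST -/

/-- the plateau at `a` is a birth: the circle `frontier (x a)` is new -/
def BirthAt (S : Set V) (x : ℝ → Set P) (a : ℝ) : Prop :=
  ∀ᶠ z in 𝓝[<] a, Disjoint (slice S z) (x a)

/-- the plateau at `a` is a cap: the circle `frontier (x a)` ends -/
def CapAt (S : Set V) (x : ℝ → Set P) (a : ℝ) : Prop :=
  ∀ᶠ z in 𝓝[>] a, Disjoint (slice S z) (x a)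

/-- **ST0** no intermediate plateau: `S` is the boundary of a column -/
def SpecST0 : Prop := ∀ (S : Set V) (J : Finset ℝ) (x : ℝ → Set P), Stk S J x →
  (∀ a ∈ J, BirthAt S x a ∨ CapAt S x a) → ∃ (D : Set P) (a b : ℝ), AmbDisc D ∧ a < b ∧
    J = {a, b} ∧ x a = D ∧ x b = D ∧ S = D ×ˢ {a} ∪ D ×ˢ {b} ∪ frontier D ×ˢ Icc a b

/-- **Base form**: one intermediate plateau `x` at height `a₀`, closed by columns over the discs
`C i` downwards and over the discs `H l` upwards. -/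
structure BaseForm (S : Set V) (x : Set P) (a₀ : ℝ) {ι κ : Type} (C : ι → Set P) (H : κ → Set P)
    (lo : ι → ℝ) (hi : κ → ℝ) : Prop where
  fin₁ : Finite ι
  fin₂ : Finite κ
  discC : ∀ i, AmbDisc (C i)
  discH : ∀ l, AmbDisc (H l)
  disjC : ∀ i j, i ≠ j → Disjoint (frontier (C i)) (frontier (C j))
  disjH : ∀ l m, l ≠ m → Disjoint (frontier (H l)) (frontier (H m))
  ev : Ev (⋃ i, frontier (C i)) x (⋃ l, frontier (H l))
  touchC : ∀ i, (frontier (C i) ∩ x).Nonempty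
  touchH : ∀ l, (frontier (H l) ∩ x).Nonempty
  ne₁ : Nonempty ι
  ne₂ : Nonempty κ
  lo_lt : ∀ i, lo i < a₀
  lt_hi : ∀ l, a₀ < hi l
  nestC : ∀ i j, C i ⊆ interior (C j) → lo j < lo i
  nestH : ∀ l m, H l ⊆ interior (H m) → hi l < hi m
  eq : S = x ×ˢ {a₀} ∪ (⋃ i, (frontier (C i) ×ˢ Icc (lo i) a₀ ∪ C i ×ˢ {lo i})) ∪
    ⋃ l, (frontier (H l) ×ˢ Icc a₀ (hi l) ∪ H l ×ˢ {hi l})

/-- **ST1a** one intermediate plateau: base form -/
def SpecST1a : Prop := ∀ (S : Set V) (J : Finset ℝ) (x : ℝ → Set P) (a₀ : ℝ), Stk S J x →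
  a₀ ∈ J → ¬ BirthAt S x a₀ → ¬ CapAt S x a₀ →
  (∀ a ∈ J, a ≠ a₀ → BirthAt S x a ∨ CapAt S x a) →
  ∃ (ι κ : Type) (C : ι → Set P) (H : κ → Set P) (lo : ι → ℝ) (hi : κ → ℝ),
    BaseForm S (x a₀) a₀ C H lo hi

/-- **ST1b** the base form is standard -/
def SpecST1b : Prop := ∀ (S : Set V) (x : Set P) (a₀ : ℝ) (ι κ : Type) (C : ι → Set P)
  (H : κ → Set P) (lo : ι → ℝ) (hi : κ → ℝ), BaseForm S x a₀ C H lo hi → AmbStd S

/-- output of the planar analysis: `U = x ∪ ⋃ C i`, the discs `C i` are disjoint and touch `x`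
from outside; `U` fills `H l₀` up to the disjoint discs `H l`, `l ≠ l₀`. -/
structure PlanarOut (x : Set P) {ι κ : Type} (C : ι → Set P) (H : κ → Set P) (l₀ : κ) :
    Prop where
  disjC : ∀ i j, i ≠ j → Disjoint (C i) (C j)
  out : ∀ i, Disjoint (interior x) (C i)
  disjH : ∀ l m, l ≠ l₀ → m ≠ l₀ → l ≠ m → Disjoint (H l) (H m)
  sub : ∀ l, H l ⊆ H l₀
  sub_int : ∀ l, l ≠ l₀ → H l ⊆ interior (H l₀)
  eq : H l₀ = x ∪ (⋃ i, C i) ∪ ⋃ l, ⋃ (_ : l ≠ l₀), H l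
  out' : ∀ l, l ≠ l₀ → Disjoint (interior (x ∪ ⋃ i, C i)) (H l)
  frontier_eq : frontier (x ∪ ⋃ i, C i) = ⋃ l, frontier (H l)

/-- **PA** planar analysis of the base form -/
def SpecPA : Prop := ∀ (x : Set P) (ι κ : Type) (C : ι → Set P) (H : κ → Set P),
  Finite ι → Finite κ → Nonempty ι → Nonempty κ → (∀ i, AmbDisc (C i)) → (∀ l, AmbDisc (H l)) →
  (∀ i j, i ≠ j → Disjoint (frontier (C i)) (frontier (C j))) →
  (∀ l m, l ≠ m → Disjoint (frontier (H l)) (frontier (H m))) →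
  Ev (⋃ i, frontier (C i)) x (⋃ l, frontier (H l)) →
  (∀ i, (frontier (C i) ∩ x).Nonempty) → (∀ l, (frontier (H l) ∩ x).Nonempty) →
  (∃ l₀, PlanarOut x C H l₀) ∨ ∃ i₀, PlanarOut x H C i₀

/-- **COL** columns -/
def SpecCol : Prop := ∀ (D : Set P) (a b : ℝ), AmbDisc D → a < b →
  AmbBall (D ×ˢ Icc a b : Set V) ∧
  frontier (D ×ˢ Icc a b : Set V) = D ×ˢ {a} ∪ D ×ˢ {b} ∪ frontier D ×ˢ Icc a b ∧
  ConBall 2 (D ×ˢ {a} : Set V) (frontier D ×ˢ {a}) ∧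
  ConBall 2 (D ×ˢ {b} : Set V) (frontier D ×ˢ {b}) ∧
  ConBall 2 (frontier D ×ˢ Icc a b ∪ D ×ˢ {b} : Set V) (frontier D ×ˢ {a}) ∧
  ConBall 2 (frontier D ×ˢ Icc a b ∪ D ×ˢ {a} : Set V) (frontier D ×ˢ {b})

/-- **SPLIT** a stack is cut at an innermost circle of a regular level. -/
def SpecSplit : Prop := SpecJS → SpecTwoDiscs → ∀ (S : Set V) (J : Finset ℝ) (x : ℝ → Set P)
  (z₀ : ℝ) (F : Finset (Set P)) (E : Set P), Stk S J x → z₀ ∉ J → CircFam F →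
  slice S z₀ = ⋃ c ∈ F, c → AmbDisc E → frontier E ∈ F → E ∩ slice S z₀ = frontier E →
  ∃ (A₁ A₂ : Set V) (J₁ J₂ : Finset ℝ),
    ConBall 2 A₁ (frontier E ×ˢ {z₀}) ∧ ConBall 2 A₂ (frontier E ×ˢ {z₀}) ∧
    A₁ ∪ A₂ = S ∧ A₁ ∩ A₂ = frontier E ×ˢ {z₀} ∧ J₁ ∪ J₂ = J ∧ Disjoint J₁ J₂ ∧
    (∀ a ∈ J₁, x a ×ˢ {a} ⊆ A₁) ∧ (∀ a ∈ J₂, x a ×ˢ {a} ⊆ A₂) ∧
    -- the circle is a wall of `A₁` below and a wall of `A₂` above
    (∀ᶠ z in 𝓝[<] z₀, frontier E ×ˢ {z} ⊆ A₁) ∧ (∀ᶠ z in 𝓝[>] z₀, frontier E ×ˢ {z} ⊆ A₂) ∧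
    Stk (A₁ ∪ E ×ˢ {z₀}) (insert z₀ J₁) (Function.update x z₀ E) ∧
    Stk (A₂ ∪ E ×ˢ {z₀}) (insert z₀ J₂) (Function.update x z₀ E)

end P073.ALX
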